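import Vale.Agent.P048.Full.All
import Vale.Agent.P048.Full.Small7
import Vale.Agent.P048.Full.TwinAll

/-!
The cycle-complete Ramsey identity in the whole range `3 ≤ n ≤ m`.
-/

namespace Vale.Agent.Results.P048.FullRange

open Vale.Agent.P048

theorem result : ∀ m n : ℕ, 3 ≤ n → n ≤ m → (m, n) ≠ (3, 3) →
    IsLeast {N : ℕ | ∀ G : SimpleGraph (Fin N),
      (∃ v : Fin N, ∃ p : G.Walk v v, p.IsCycle ∧ p.length = m) ∨
      ∃ s : Finset (Fin N), G.IsNIndepSet n s} ((m - 1) * (n - 1) + 1) := fun m n hn hmn h33 =>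
  Full.ramsey_all hn hmn h33 (fun hm _ _ => Full.twinSpec_general hm)
    (fun _ _ => ⟨cliqueSpec_seven, growthSpec_seven⟩)

end Vale.Agent.Results.P048.FullRange
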